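import Vale.Agent.P181.TS.Spec
import Vale.Agent.P181.T7.Cells
import Vale.Agent.P181.H530.Zero
import Vale.Agent.P181.H530.Pad
import Vale.Agent.P181.H539.UpStmt
import Vale.Agent.P181.H583.Upper
import Vale.Agent.P181.H463.Big

set_option autoImplicit false

/-!
# P181, TS [IV]: Foulkes' inequality for heavy tails and all `b ≥ (1 + δ) a`, from (LBX)
-/

namespace Vale.Agent.P181.TS.H870

open Finset Vale.Agent.P181 Vale.Agent.P181.H280 Vale.Agent.P181.H463
open Vale.Agent.P181.T4 (ex ex_of_lt)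
open Vale.Agent.P181.T7 (below cells all_n_cells)

/-- **[IV]**: Foulkes' inequality for all `b ≥ (1 + δ) a` as soon as the part of `lam` below its
first `(1 + log a) ^ c` rows has at least `b (1 + log a) ^ c` cells. -/
def TailF : Prop := ∀ δ : ℝ, 0 < δ → ∃ c : ℕ, ∀ (a b n : ℕ) (lam : Fin n → ℕ),
  (1 + δ) * a ≤ b →
  (b : ℝ) * (1 + Real.log a) ^ c ≤
    ∑ i ∈ univ.filter (fun i : Fin n => (1 + Real.log a) ^ c ≤ ((i : ℕ) : ℝ)), (lam i : ℝ) →
  plethMult a b n lam ≤ plethMult b a n lam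

/-- the trivial upper bound -/
theorem pleth_le_gt (a b : ℕ) {lam : Fin a → ℕ} (hlam : Antitone lam) :
    plethMult a b a lam ≤ gt a a lam := by
  have h1 := T4.plethMult_le_pow (a := a) (b := b) (c := a) (R := 0) (m := a) (Nat.zero_add a) lam
    (∑ i, lam i) (fun i hi => absurd hi (Nat.not_lt_zero _))
  have h2 : (fun i : Fin a => lam ⟨0 + i, by have := i.isLt; omega⟩) = lam := by
    funext i
    exact congrArg lam (Fin.ext (Nat.zero_add _))
  rw [h2, Nat.zero_mul, pow_zero, one_mul] at h1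
  exact h1.trans (Vale.Agent.P181.H539.finrank_HW_le_gt a a hlam)

/-- a heavy tail has a heavy row -/
lemma exists_row {a : ℕ} (lam : Fin a → ℕ) (j : ℕ) {x : ℝ} (hx : 0 ≤ x)
    (h : x * (1 + Real.log a) < below j lam) :
    ∃ i, j ≤ i ∧ i < a ∧ x ≤ ((i + 1 : ℕ) : ℝ) * ex lam i := by
  by_contra hcon
  push Not at hcon
  have h1 : (below j lam : ℝ) ≤ ∑ i ∈ Ico j a, x * (((i + 1 : ℕ) : ℝ)⁻¹) := by
    rw [T7.below]
    push_cast
    apply Finset.sum_le_sum
    intro i hi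
    rw [Finset.mem_Ico] at hi
    have h2 := (hcon i hi.1 hi.2).le
    have h3 : (0 : ℝ) < ((i + 1 : ℕ) : ℝ) := by positivity
    push_cast at h2 h3 ⊢
    rw [← div_eq_mul_inv, le_div_iff₀ h3]
    linarith
  have h2 : ∑ i ∈ Ico j a, x * (((i + 1 : ℕ) : ℝ)⁻¹) ≤
      ∑ i ∈ range a, x * (((i + 1 : ℕ) : ℝ)⁻¹) := by
    apply Finset.sum_le_sum_of_subset_of_nonneg
    · intro i hi
      rw [Finset.mem_Ico] at hi
      exact Finset.mem_range.2 hi.2
    · intro i _ _
      positivity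
  have h3 : ∑ i ∈ range a, x * (((i + 1 : ℕ) : ℝ)⁻¹) = x * ((harmonic a : ℚ) : ℝ) := by
    rw [harmonic, ← Finset.mul_sum]
    push_cast
    rfl
  have h4 := mul_le_mul_of_nonneg_left (harmonic_le_one_add_log a) hx
  linarith

/-- one pair `(a, b)` -/
theorem one {δ : ℝ} {a b C : ℕ}
    (h : ∀ (k b n l : ℕ) (lam : Fin n → ℕ), n ≤ a → (1 + δ) * a ≤ b → b ≤ a ^ 2 → k ≤ a →
      Antitone lam → ∑ i, lam i = k * b → Real.log a ^ C ≤ l → l ≤ n →
      (b : ℝ) * Real.log a ^ C ≤ l * ex lam (l - 1) →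
      (gt n a lam : ℝ) * Real.exp (2 * b) ≤ plethMult b k n lam)
    (hab : (1 + δ) * a ≤ b) (hb2 : b ≤ a ^ 2) {lam : Fin a → ℕ} (hlam : Antitone lam)
    (hsum : ∑ i, lam i = a * b) (j : ℕ) (hj : Real.log a ^ C ≤ j)
    (hw : (b : ℝ) * Real.log a ^ C * (1 + Real.log a) < below j lam) :
    plethMult a b a lam ≤ plethMult b a a lam := by
  have hlog : 0 ≤ Real.log a := Real.log_natCast_nonneg a
  obtain ⟨i, hji, hia, hi⟩ := exists_row lam j (by positivity) hw
  have h1 := h a b a (i + 1) lam le_rfl hab hb2 le_rfl hlam hsum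
    (hj.trans (by exact_mod_cast (by omega : j ≤ i + 1))) (by omega) (by simpa using hi)
  have h2 : (gt a a lam : ℝ) ≤ plethMult b a a lam := by
    refine le_trans ?_ h1
    exact le_mul_of_one_le_right (Nat.cast_nonneg _) (Real.one_le_exp (by positivity))
  exact (pleth_le_gt a b hlam).trans (by exact_mod_cast h2)

/-- **[IV]** from (LBX). -/
theorem tailF (hX : LBX) : TailF := by
  intro δ hδ
  obtain ⟨C, hC⟩ := hX δ hδ
  obtain ⟨a₀, ha₀⟩ := Filter.eventually_atTop.1 hC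
  refine ⟨C + 2 * a₀ + 2, fun a b n lam hab hw => ?_⟩
  by_cases hbig : (a - 1) ^ 2 ≤ b
  · exact H463.big_stmt a b n lam hbig
  push Not at hbig
  have ha2 : 2 ≤ a := by
    by_contra hcon
    have h1 : a - 1 = 0 := by omega
    rw [h1] at hbig
    simp at hbig
  have haR : (2 : ℝ) ≤ a := by exact_mod_cast ha2
  have hb0 : (0 : ℝ) < b := by
    have : (0 : ℝ) < (1 + δ) * a := by positivity
    linarith
  have hlog2 : (0.69 : ℝ) ≤ Real.log a := by
    have h1 : Real.log 2 ≤ Real.log a := Real.log_le_log (by norm_num) haR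
    have h2 := Real.log_two_gt_d9
    linarith
  set L : ℝ := 1 + Real.log a with hL
  have hL1 : 1.69 ≤ L := by
    rw [hL]
    linarith
  have hL1' : 1 ≤ L := by linarith
  set c : ℕ := C + 2 * a₀ + 2 with hc
  have hfil : ∑ i ∈ univ.filter (fun i : Fin n => L ^ c ≤ ((i : ℕ) : ℝ)), (lam i : ℝ) =
      ((cells ⌈L ^ c⌉₊ lam : ℕ) : ℝ) := by
    rw [T7.cells]
    push_cast
    rw [Finset.sum_filter]
    apply Finset.sum_congr rfl
    intro i _
    simp only [Nat.ceil_le]
  rw [hfil] at hw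
  rcases Nat.lt_or_ge a a₀ with hlt | hge
  · -- the hypothesis is contradictory
    by_cases h0 : plethMult a b n lam = 0
    · rw [h0]
      exact Nat.zero_le _
    exfalso
    obtain ⟨-, hsum, -⟩ := H530.zero_stmt a b n lam h0
    have h1 : cells ⌈L ^ c⌉₊ lam ≤ a * b := by
      rw [← hsum, T7.cells]
      apply Finset.sum_le_sum
      intro i _
      split_ifs
      · exact le_rfl
      · exact Nat.zero_le _
    have h2 : (b : ℝ) * L ^ c ≤ a * b := hw.trans (by exact_mod_cast h1)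
    have h3 : L ^ c ≤ a := by
      rw [mul_comm (a : ℝ)] at h2
      exact le_of_mul_le_mul_left h2 hb0
    have h4 : (2 : ℝ) ^ a₀ ≤ L ^ c := by
      calc (2 : ℝ) ^ a₀ ≤ (L ^ 2) ^ a₀ := pow_le_pow_left₀ (by norm_num) (by nlinarith) _
        _ = L ^ (2 * a₀) := by rw [← pow_mul]
        _ ≤ L ^ c := pow_le_pow_right₀ hL1' (by omega)
    have h5 : (a₀ : ℝ) < 2 ^ a₀ := by exact_mod_cast Nat.lt_two_pow_self
    have h6 : (a : ℝ) < a₀ := by exact_mod_cast hlt
    linarith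
  · refine all_n_cells H530.pad_stmt H530.zero_stmt
      (fun f => (b : ℝ) * L ^ c ≤ ((f ⌈L ^ c⌉₊ : ℕ) : ℝ)) ?_ n lam hw
    intro mu hmu hsum hmw
    refine one (ha₀ a hge) hab ?_ hmu hsum ⌈L ^ c⌉₊ ?_ ?_
    · have h1 : (a - 1) ^ 2 ≤ a ^ 2 := Nat.pow_le_pow_left (Nat.sub_le a 1) 2
      omega
    · refine le_trans ?_ (Nat.le_ceil _)
      calc Real.log a ^ C ≤ L ^ C := pow_le_pow_left₀ (by linarith) (by rw [hL]; linarith) _
        _ ≤ L ^ c := pow_le_pow_right₀ hL1' (by omega)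
    · refine lt_of_lt_of_le ?_ hmw
      have h1 : Real.log a ^ C ≤ L ^ C :=
        pow_le_pow_left₀ (by linarith) (by rw [hL]; linarith) _
      calc (b : ℝ) * Real.log a ^ C * L ≤ b * L ^ C * L := by gcongr
        _ = b * L ^ (C + 1) := by ring
        _ < b * L ^ c := by
          apply mul_lt_mul_of_pos_left _ hb0
          exact pow_lt_pow_right₀ (by linarith) (by omega)

end Vale.Agent.P181.TS.H870
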